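import Vale.Agent.P365.T2.H692.TLt
import Vale.Agent.P365.J376.PathG
import Vale.Agent.P365.V4.Def
import Vale.Agent.P365.Open.Energy

set_option linter.all false

/-!
# P365 / T2: the ramp on the torus and `TLt ≤ (energy of the ramp / 2)^(q/2)` (helper692)
-/

namespace P365T2.H692

open P365L P365O P365T1 P365CUL P365T2.H694 Matrix Complex MeasureTheory
open Vale.Agent.P365.J376
open scoped ENNReal

/-! ### geometry -/

section geo

variable {N : ℕ} [NeZero N]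

/-- one coordinate, truncated at `8m` -/
theorem hz_trunc_lip {m : ℕ} (hN : 20 * m ≤ N) (a b : ZMod N) :
    min (hz ((a.val : ℤ) - (N / 2 : ℕ))) (8 * m) ≤
      min (hz ((b.val : ℤ) - (N / 2 : ℕ))) (8 * m) + (a - b).valMinAbs.natAbs := by
  have hN0 : 0 < N := Nat.pos_of_ne_zero (NeZero.ne N)
  obtain ⟨d, hd⟩ : ∃ d : ℤ, d = (a - b).valMinAbs := ⟨_, rfl⟩
  have h1 : ((d : ℤ) : ZMod N) = a - b := by rw [hd, ZMod.coe_valMinAbs]
  have h2 : d.natAbs ≤ N / 2 := by rw [hd]; exact ZMod.natAbs_valMinAbs_le _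
  have ha := ZMod.val_lt a
  have hb := ZMod.val_lt b
  have h3 : (((a.val : ℤ) - (b.val : ℤ) - d : ℤ) : ZMod N) = 0 := by
    push_cast
    rw [ZMod.natCast_zmod_val, ZMod.natCast_zmod_val, h1, sub_self]
  rw [ZMod.intCast_zmod_eq_zero_iff_dvd] at h3
  obtain ⟨c, hc⟩ := h3
  have hc1 : c < 2 := by
    by_contra hcon
    have h5 : (N : ℤ) * 2 ≤ N * c := mul_le_mul_of_nonneg_left (by omega) (by omega)
    omega
  have hc2 : -2 < c := by
    by_contra hcon
    have h5 : (N : ℤ) * c ≤ N * (-2) := mul_le_mul_of_nonneg_left (by omega) (by omega)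
    omega
  rw [← hd]
  have hc3 : c = -1 ∨ c = 0 ∨ c = 1 := by omega
  unfold hz
  rcases hc3 with rfl | rfl | rfl
  · rw [mul_neg, mul_one] at hc
    split_ifs <;> omega
  · rw [mul_zero] at hc
    split_ifs <;> omega
  · rw [mul_one] at hc
    split_ifs <;> omega

theorem nT_lip {m : ℕ} (hN : 20 * m ≤ N) (x y : Tor N) :
    min (nT N x) (8 * m) ≤ min (nT N y) (8 * m) + nrm (x - y) := by
  have h1 := hz_trunc_lip hN x.1 y.1
  have h2 := hz_trunc_lip hN x.2 y.2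
  have e1 : (x - y).1 = x.1 - y.1 := rfl
  have e2 : (x - y).2 = x.2 - y.2 := rfl
  unfold nT nz lft nrm
  rw [e1, e2]
  simp only
  omega

/-- the ramp: `0` for `nT ≤ 4m`, `1` for `nT ≥ 8m` -/
noncomputable def ramp (N m : ℕ) [NeZero N] (y : Tor N) : ℝ :=
  ((min (nT N y) (8 * m) - 4 * m : ℕ) : ℝ) / (4 * m)

theorem ramp_zero {m : ℕ} {y : Tor N} (h : nT N y ≤ 4 * m) : ramp N m y = 0 := by
  unfold ramp
  rw [show min (nT N y) (8 * m) - 4 * m = 0 by omega]
  simp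

theorem ramp_one {m : ℕ} (hm : 0 < m) {y : Tor N} (h : 8 * m ≤ nT N y) : ramp N m y = 1 := by
  unfold ramp
  rw [show min (nT N y) (8 * m) - 4 * m = 4 * m by omega]
  push_cast
  exact div_self (by positivity)

theorem ramp_nonneg {m : ℕ} (y : Tor N) : 0 ≤ ramp N m y := by unfold ramp; positivity

theorem ramp_le_one {m : ℕ} (y : Tor N) : ramp N m y ≤ 1 := by
  rcases Nat.eq_zero_or_pos m with rfl | hm
  · unfold ramp; simp
  · unfold ramp
    rw [div_le_one (by positivity)]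
    have : min (nT N y) (8 * m) - 4 * m ≤ 4 * m := by omega
    calc ((min (nT N y) (8 * m) - 4 * m : ℕ) : ℝ) ≤ ((4 * m : ℕ) : ℝ) := by exact_mod_cast this
      _ = 4 * m := by push_cast; ring

theorem ramp_sub_le {m : ℕ} (hN : 20 * m ≤ N) (x y : Tor N) :
    ramp N m x - ramp N m y ≤ (nrm (x - y) : ℝ) / (4 * m) := by
  have h1 := nT_lip hN x y
  have h2 : min (nT N x) (8 * m) - 4 * m ≤ min (nT N y) (8 * m) - 4 * m + nrm (x - y) := by
    omega
  unfold ramp
  rw [← sub_div]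
  refine div_le_div_of_nonneg_right ?_ (by positivity)
  have h3 : ((min (nT N x) (8 * m) - 4 * m : ℕ) : ℝ) ≤
      ((min (nT N y) (8 * m) - 4 * m + nrm (x - y) : ℕ) : ℝ) := by exact_mod_cast h2
  rw [Nat.cast_add] at h3
  linarith

theorem ramp_lip {m : ℕ} (hN : 20 * m ≤ N) (x y : Tor N) :
    |ramp N m x - ramp N m y| ≤ (nrm (x - y) : ℝ) / (4 * m) := by
  rw [abs_sub_le_iff]
  refine ⟨ramp_sub_le hN x y, ?_⟩
  rw [nrm_sub_comm]
  exact ramp_sub_le hN y x

theorem ramp_sq {m : ℕ} (hN : 20 * m ≤ N) (x y : Tor N) :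
    (ramp N m x - ramp N m y) ^ 2 ≤ (1 / (4 * m)) ^ 2 * (nrm (x - y) : ℝ) ^ 2 := by
  rw [← mul_pow, ← sq_abs]
  refine pow_le_pow_left₀ (abs_nonneg _) ?_ 2
  refine (ramp_lip hN x y).trans (le_of_eq (by ring))

/-- the ramp is a Lipschitz family -/
theorem veclip_ramp {m : ℕ} (hN : 20 * m ≤ N) :
    VecLip (fun _ : Unit => ramp N m) (1 / (4 * m)) := by
  intro x y
  simpa using ramp_sq hN x y

/-- the ramp against `dsq` -/
theorem ramp_dsq {m : ℕ} (hN : 20 * m ≤ N) (x y : Tor N) :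
    (ramp N m x - ramp N m y) ^ 2 ≤ 1 / (6 * (m : ℝ) ^ 2) * P365L.dsq x y := by
  rcases Nat.eq_zero_or_pos m with rfl | hm
  · unfold ramp; simp
  have hm' : (0 : ℝ) < m := by exact_mod_cast hm
  have h1 := ramp_sq hN x y
  have h2 := P365L.dsq_ge x y
  have h3 : Real.pi ^ 2 < 10 := by
    have := Real.pi_lt_d2
    have := Real.pi_pos
    nlinarith
  have h4 : (nrm (x - y) : ℝ) ^ 2 ≤ Real.pi ^ 2 / 4 * P365L.dsq x y := by
    have hp : (0 : ℝ) < Real.pi ^ 2 := by positivity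
    have := mul_le_mul_of_nonneg_left h2 (show 0 ≤ Real.pi ^ 2 / 4 by positivity)
    have e : Real.pi ^ 2 / 4 * (4 / Real.pi ^ 2 * (nrm (x - y) : ℝ) ^ 2) =
        (nrm (x - y) : ℝ) ^ 2 := by field_simp
    linarith
  have h5 : 0 ≤ P365L.dsq x y := by
    refine le_trans ?_ h2
    positivity
  have h6 : (nrm (x - y) : ℝ) ^ 2 ≤ 10 / 4 * P365L.dsq x y := by
    refine h4.trans (mul_le_mul_of_nonneg_right (by linarith) h5)
  calc (ramp N m x - ramp N m y) ^ 2 ≤ (1 / (4 * m)) ^ 2 * (nrm (x - y) : ℝ) ^ 2 := h1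
    _ ≤ (1 / (4 * m)) ^ 2 * (10 / 4 * P365L.dsq x y) :=
        mul_le_mul_of_nonneg_left h6 (by positivity)
    _ = 10 / 64 / (m : ℝ) ^ 2 * P365L.dsq x y := by field_simp; ring
    _ ≤ 1 / (6 * (m : ℝ) ^ 2) * P365L.dsq x y := by
        refine mul_le_mul_of_nonneg_right ?_ h5
        rw [div_le_div_iff₀ (by positivity) (by positivity)]
        nlinarith [sq_nonneg (m : ℝ)]

end geo

/-! ### Jensen -/

section jensen

theorem lintegral_rpow_le' {α : Type*} [MeasurableSpace α] {μ : Measure α}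
    [IsProbabilityMeasure μ] {f : α → ℝ≥0∞} (hf : AEMeasurable f μ) {r : ℝ} (hr : 0 < r)
    (hr1 : r ≤ 1) : ∫⁻ a, f a ^ r ∂μ ≤ (∫⁻ a, f a ∂μ) ^ r := by
  rcases eq_or_lt_of_le hr1 with h | h
  · subst h
    simp
  have hpq : (r⁻¹).HolderConjugate ((1 - r)⁻¹) :=
    Real.HolderConjugate.inv_inv hr (by linarith) (by ring)
  have h1 := ENNReal.lintegral_mul_le_Lp_mul_Lq μ hpq (f := fun a => f a ^ r) (g := fun _ => 1)
    (hf.pow_const r) aemeasurable_const
  simp only [Pi.mul_apply, mul_one, ENNReal.one_rpow, lintegral_const, measure_univ, one_mul] at h1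
  refine h1.trans (le_of_eq ?_)
  have h2 : ∀ a, (f a ^ r) ^ r⁻¹ = f a := fun a => by
    rw [← ENNReal.rpow_mul, mul_inv_cancel₀ hr.ne', ENNReal.rpow_one]
  simp only [h2]
  rw [one_div, inv_inv]

variable {ι Λ : Type*} [Fintype ι] [DecidableEq ι] [Fintype Λ]
variable {A : Matrix ι ι ℝ} {p : Λ → ℝ} {ν : Λ → Measure ℝ}

theorem sum_ofReal_prod (hp : ∀ k, 0 ≤ p k) (hp1 : ∑ k, p k = 1) :
    ∑ l : ι → Λ, ENNReal.ofReal (∏ x, p (l x)) = 1 := by
  rw [← ENNReal.ofReal_sum_of_nonneg fun l _ => Finset.prod_nonneg fun x _ => hp _]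
  have h1 : ∑ l : ι → Λ, ∏ x, p (l x) = 1 := by
    have h2 := Finset.prod_univ_sum (fun _ : ι => (Finset.univ : Finset Λ)) (fun _ k => p k)
    simp only [Fintype.piFinset_univ, hp1, Finset.prod_const_one] at h2
    exact h2.symm
  rw [h1, ENNReal.ofReal_one]

/-- Jensen for the crossing quantity -/
theorem crs_le_rpow [∀ k, IsProbabilityMeasure (ν k)] (hp : ∀ k, 0 ≤ p k) (hp1 : ∑ k, p k = 1)
    (E : ℝ) {e w : (ι → Λ) → ι → ℝ} (hw : ∀ l x, 0 ≤ w l x) (S Y : Finset ι) {q : ℝ}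
    (hq : 0 < q) (hq2 : q ≤ 2) :
    Crs A p ν E e w S Y q ≤ (∑ l : ι → Λ, ENNReal.ofReal (∏ x, p (l x)) *
      ∫⁻ v, ENNReal.ofReal (∑ x ∈ S, ∑ y ∈ Y, w l x * w l y *
        ‖Gr A (WV E (e l) v) x y‖ ^ 2) ∂(Measure.pi fun x => ν (l x))) ^ (q / 2) := by
  have hr : 0 < q / 2 := by linarith
  have hr1 : q / 2 ≤ 1 := by linarith
  have hT : ∀ (l : ι → Λ) (v : ι → ℝ), 0 ≤ ∑ x ∈ S, ∑ y ∈ Y, w l x * w l y *
      ‖Gr A (WV E (e l) v) x y‖ ^ 2 := fun l v =>
    Finset.sum_nonneg fun x _ => Finset.sum_nonneg fun y _ =>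
      mul_nonneg (mul_nonneg (hw _ _) (hw _ _)) (sq_nonneg _)
  have hm : ∀ l : ι → Λ, Measurable fun v : ι → ℝ => ENNReal.ofReal (∑ x ∈ S, ∑ y ∈ Y,
      w l x * w l y * ‖Gr A (WV E (e l) v) x y‖ ^ 2) := fun l => by
    refine ENNReal.measurable_ofReal.comp ?_
    refine Finset.measurable_sum _ fun x _ => Finset.measurable_sum _ fun y _ => ?_
    exact ((P365T1.Bad.measurable_Gr_WV A E (e l) x y).norm.pow_const 2).const_mul _
  have h1 : Crs A p ν E e w S Y q ≤ ∑ l : ι → Λ, ENNReal.ofReal (∏ x, p (l x)) *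
      (∫⁻ v, ENNReal.ofReal (∑ x ∈ S, ∑ y ∈ Y, w l x * w l y *
        ‖Gr A (WV E (e l) v) x y‖ ^ 2) ∂(Measure.pi fun x => ν (l x))) ^ (q / 2) := by
    unfold Crs
    refine Finset.sum_le_sum fun l _ => mul_le_mul' le_rfl ?_
    refine le_trans (le_of_eq (lintegral_congr fun v => ?_))
      (lintegral_rpow_le' (hm l).aemeasurable hr hr1)
    rw [ENNReal.ofReal_rpow_of_nonneg (hT l v) hr.le]
  refine h1.trans ?_
  have h2 : ∀ X : (ι → Λ) → ℝ≥0∞, ∑ l : ι → Λ, ENNReal.ofReal (∏ x, p (l x)) * X l ^ (q / 2) ≤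
      (∑ l : ι → Λ, ENNReal.ofReal (∏ x, p (l x)) * X l) ^ (q / 2) := by
    intro X
    have h3 := ENNReal.rpow_arith_mean_le_arith_mean_rpow Finset.univ
      (fun l : ι → Λ => ENNReal.ofReal (∏ x, p (l x))) (fun l => X l ^ (q / 2))
      (sum_ofReal_prod hp hp1) (p := (q / 2)⁻¹) (by rw [one_le_inv₀ hr]; exact hr1)
    have h4 : ∀ l, (X l ^ (q / 2)) ^ (q / 2)⁻¹ = X l := fun l => by
      rw [← ENNReal.rpow_mul, mul_inv_cancel₀ hr.ne', ENNReal.rpow_one]
    simp only [h4] at h3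
    have h5 := ENNReal.rpow_le_rpow h3 hr.le
    rwa [← ENNReal.rpow_mul, inv_mul_cancel₀ hr.ne', ENNReal.rpow_one] at h5
  exact h2 _

/-- energy of one test function, averaged: the `lintegral` form -/
theorem ofReal_PhiG_one (hA : A.IsSymm) [∀ k, IsProbabilityMeasure (ν k)] (hp : ∀ k, 0 ≤ p k)
    (E : ℝ) {e : (ι → Λ) → ι → ℝ} (he : ∀ l x, 0 < e l x) (f : ι → ℝ) :
    ENNReal.ofReal (PhiG A p ν E (fun _ : Unit => f) e) =
      ∑ l : ι → Λ, ENNReal.ofReal (∏ x, p (l x)) *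
        ∫⁻ v, ENNReal.ofReal (En A (WV E (e l) v) f) ∂(Measure.pi fun x => ν (l x)) := by
  have hn : ∀ (l : ι → Λ) (v : ι → ℝ) x, (WV E (e l) v x).im < 0 := fun l v x => by
    simp [WV, he]
  have h0 : ∀ (l : ι → Λ) (v : ι → ℝ), 0 ≤ En A (WV E (e l) v) f := fun l v => by
    unfold En
    exact Finset.sum_nonneg fun x _ => Finset.sum_nonneg fun y _ =>
      mul_nonneg (mul_nonneg (mul_nonneg (by linarith [hn l v x]) (by linarith [hn l v y]))
        (KK_nonneg _ _)) (sq_nonneg _)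
  unfold PhiG AvG Ex
  rw [ENNReal.ofReal_sum_of_nonneg fun l _ => mul_nonneg (Finset.prod_nonneg fun x _ => hp _)
    (integral_nonneg fun v => by simpa using h0 l v)]
  refine Finset.sum_congr rfl fun l _ => ?_
  rw [ENNReal.ofReal_mul (Finset.prod_nonneg fun x _ => hp _)]
  congr 1
  have hi := integrable_sum_En hA (Measure.pi fun x => ν (l x)) E (he l) (fun _ : Unit => f)
  rw [ofReal_integral_eq_lintegral_ofReal hi (Filter.Eventually.of_forall fun v => by
    simpa using h0 l v)]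
  refine lintegral_congr fun v => ?_
  simp

/-- the crossing quantity is at most the energy of a separating test function -/
theorem crs_le_energy (hA : A.IsSymm) [∀ k, IsProbabilityMeasure (ν k)] (hp : ∀ k, 0 ≤ p k)
    (hp1 : ∑ k, p k = 1) (E : ℝ) {e w : (ι → Λ) → ι → ℝ} (he : ∀ l x, 0 < e l x)
    (hw : ∀ l x, 0 ≤ w l x) (hwe : ∀ l x, w l x ≤ e l x) {S Y : Finset ι} (hSY : Disjoint S Y)
    {f : ι → ℝ} (hS : ∀ x ∈ S, f x = 0) (hY : ∀ x ∈ Y, f x = 1) {q : ℝ}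
    (hq : 0 < q) (hq2 : q ≤ 2) :
    Crs A p ν E e w S Y q ≤
      ENNReal.ofReal ((PhiG A p ν E (fun _ : Unit => f) e / 2) ^ (q / 2)) := by
  have hr : 0 < q / 2 := by linarith
  have h0 : 0 ≤ PhiG A p ν E (fun _ : Unit => f) e := by
    unfold PhiG AvG Ex
    refine Finset.sum_nonneg fun l _ => mul_nonneg (Finset.prod_nonneg fun x _ => hp _)
      (integral_nonneg fun v => ?_)
    simp only [Finset.univ_unique, Finset.sum_const, Finset.card_singleton, one_smul]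
    unfold En
    exact Finset.sum_nonneg fun x _ => Finset.sum_nonneg fun y _ =>
      mul_nonneg (mul_nonneg (mul_nonneg (by simpa [WV] using (he l x).le)
        (by simpa [WV] using (he l y).le)) (KK_nonneg _ _)) (sq_nonneg _)
  refine (crs_le_rpow hp hp1 E hw S Y hq hq2).trans ?_
  rw [← ENNReal.ofReal_rpow_of_nonneg (by linarith) hr.le]
  refine ENNReal.rpow_le_rpow ?_ hr.le
  have h1 : ENNReal.ofReal (PhiG A p ν E (fun _ : Unit => f) e / 2) =
      ∑ l : ι → Λ, ENNReal.ofReal (∏ x, p (l x)) *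
        ∫⁻ v, ENNReal.ofReal (En A (WV E (e l) v) f / 2) ∂(Measure.pi fun x => ν (l x)) := by
    rw [ENNReal.ofReal_div_of_pos two_pos, ofReal_PhiG_one hA hp E he f, ENNReal.div_eq_inv_mul,
      Finset.mul_sum]
    refine Finset.sum_congr rfl fun l _ => ?_
    rw [mul_left_comm]
    congr 1
    rw [← lintegral_const_mul' _ _ (by simp)]
    refine lintegral_congr fun v => ?_
    rw [ENNReal.ofReal_div_of_pos two_pos, ENNReal.div_eq_inv_mul]
  rw [h1]
  refine Finset.sum_le_sum fun l _ => mul_le_mul' le_rfl (lintegral_mono fun v => ?_)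
  refine ENNReal.ofReal_le_ofReal ?_
  have hn : ∀ x, (WV E (e l) v x).im < 0 := fun x => by simp [WV, he]
  have h2 := two_Trm_le_En (A := A) hn hSY.symm f hY hS hA
  have h3 : ∑ x ∈ S, ∑ y ∈ Y, w l x * w l y * ‖Gr A (WV E (e l) v) x y‖ ^ 2 ≤
      Trm A (WV E (e l) v) Y S := by
    unfold Trm
    rw [Finset.sum_comm]
    refine Finset.sum_le_sum fun y _ => Finset.sum_le_sum fun x _ => ?_
    have e1 : ∀ z, -(WV E (e l) v z).im = e l z := fun z => by simp [WV]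
    rw [e1, e1, KK_symm hA y x]
    unfold KK
    refine mul_le_mul_of_nonneg_right ?_ (sq_nonneg _)
    rw [mul_comm]
    exact mul_le_mul (hwe _ _) (hwe _ _) (hw _ _) (he _ _).le
  linarith

end jensen

/-! ### the torus -/

section tor

variable {Λ : Type*} [Fintype Λ] {p : Λ → ℝ} {ν : Λ → Measure ℝ}

open Classical in
/-- **`TLt ≤ (energy of the ramp / 2)^(q/2)`** -/
theorem TLt_le_ramp [∀ k, IsProbabilityMeasure (ν k)] (hp : ∀ k, 0 ≤ p k) (hp1 : ∑ k, p k = 1)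
    (mov : Λ → Prop) (N : ℕ) [NeZero N] {c q : ℝ} (hc : 0 ≤ c) (hq : 0 < q) (hq2 : q ≤ 2)
    (E : ℝ) {b : ℝ} (hb : 0 < b) {m : ℕ} (hm : 0 < m) :
    TLt p ν mov N c q E b m ≤ ENNReal.ofReal ((PhiG (AT N) p ν E (fun _ : Unit => ramp N m)
      (fun l y => b + if mov (l y) then prT N c m y else 0) / 2) ^ (q / 2)) := by
  have hk : ∀ (l : Tor N → Λ) (x : Tor N), 0 ≤ (if mov (l x) then prT N c m x else 0) :=
    fun l x => by
      split_ifs
      · exact prT_nonneg hc m x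
      · exact le_rfl
  have hd : Disjoint (slT N (3 * m) (4 * m)) (slT N (8 * m) (12 * m)) := by
    rw [Finset.disjoint_left]
    intro x h1 h2
    rw [mem_slT] at h1 h2
    omega
  unfold TLt
  exact crs_le_energy (AT_symm N) hp hp1 E (fun l x => by have := hk l x; linarith)
    (fun l x => hk l x) (fun l x => by linarith) hd
    (fun x hx => ramp_zero (by rw [mem_slT] at hx; omega))
    (fun x hx => ramp_one hm (by rw [mem_slT] at hx; omega)) hq hq2

end tor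

/-! ### comparison of families -/

section cmp

variable {ι Λ : Type*} [Fintype ι] [DecidableEq ι] [Fintype Λ]
variable {A : Matrix ι ι ℝ} {p : Λ → ℝ} {ν : Λ → Measure ℝ}

theorem sum_En_eq (W : ι → ℂ) {κ : Type*} [Fintype κ] (H : κ → ι → ℝ) :
    ∑ k, En A W (H k) = ∑ x, ∑ y, -(W x).im * -(W y).im * KK A W x y *
      ∑ k, (H k x - H k y) ^ 2 := by
  unfold En
  rw [Finset.sum_comm]
  refine Finset.sum_congr rfl fun x _ => ?_
  rw [Finset.sum_comm]
  refine Finset.sum_congr rfl fun y _ => ?_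
  rw [Finset.mul_sum]

/-- a family dominated pairwise by `C` times another one -/
theorem PhiG_le_of_sq (hA : A.IsSymm) [∀ k, IsProbabilityMeasure (ν k)] (hp : ∀ k, 0 ≤ p k)
    (E : ℝ) {e : (ι → Λ) → ι → ℝ} (he : ∀ l x, 0 < e l x) {κ κ' : Type*} [Fintype κ]
    [Fintype κ'] {F : κ → ι → ℝ} {G : κ' → ι → ℝ} {C : ℝ}
    (h : ∀ x y, ∑ k, (F k x - F k y) ^ 2 ≤ C * ∑ k, (G k x - G k y) ^ 2) :
    PhiG A p ν E F e ≤ C * PhiG A p ν E G e := by
  unfold PhiG AvG Ex
  rw [Finset.mul_sum]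
  refine Finset.sum_le_sum fun l _ => ?_
  rw [mul_left_comm]
  refine mul_le_mul_of_nonneg_left ?_ (Finset.prod_nonneg fun x _ => hp _)
  rw [← integral_const_mul]
  refine integral_mono (integrable_sum_En hA (Measure.pi fun x => ν (l x)) E (he l) F)
    ((integrable_sum_En hA (Measure.pi fun x => ν (l x)) E (he l) G).const_mul C) fun v => ?_
  have hn : ∀ x, 0 ≤ -(WV E (e l) v x).im := fun x => by simpa [WV] using (he l x).le
  show ∑ k, En A (WV E (e l) v) (F k) ≤ C * ∑ k, En A (WV E (e l) v) (G k)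
  rw [sum_En_eq, sum_En_eq, Finset.mul_sum]
  refine Finset.sum_le_sum fun x _ => ?_
  rw [Finset.mul_sum]
  refine Finset.sum_le_sum fun y _ => ?_
  rw [mul_left_comm]
  exact mul_le_mul_of_nonneg_left (h x y) (mul_nonneg (mul_nonneg (hn x) (hn y)) (KK_nonneg _ _))

/-- the energy of the ramp is at most `1 / (6 m²)` times the energy of the position -/
theorem PhiG_ramp_le [∀ k, IsProbabilityMeasure (ν k)] (hp : ∀ k, 0 ≤ p k) {N : ℕ} [NeZero N]
    (E : ℝ) {e : (Tor N → Λ) → Tor N → ℝ} (he : ∀ l x, 0 < e l x) {m : ℕ} (hN : 20 * m ≤ N) :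
    PhiG (AT N) p ν E (fun _ : Unit => ramp N m) e ≤
      1 / (6 * (m : ℝ) ^ 2) * PhiG (AT N) p ν E (phi N) e :=
  PhiG_le_of_sq (AT_symm N) hp E he fun x y => by
    have h := ramp_dsq hN x y
    unfold P365L.dsq at h
    simpa only [Finset.univ_unique, Finset.sum_const, Finset.card_singleton, one_smul] using h

end cmp

end P365T2.H692
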