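import Vale.Agent.P365.T2.H692.C4
import Vale.Agent.P365.CUL841.Tor740

set_option linter.all false

/-!
# P365 / T2: removing the floor in 740's `TLt` (instance of `crs_floor`)
-/

namespace P365T2.H692

open P365L P365T1 P365CUL P365T2.H694 Matrix Complex MeasureTheory
open scoped ENNReal

variable {Λ : Type*} [Fintype Λ]

theorem prT_nonneg {N : ℕ} [NeZero N] {c : ℝ} (hc : 0 ≤ c) (m : ℕ) (y : Tor N) :
    0 ≤ prT N c m y := by
  unfold prT
  split_ifs
  · positivity
  · positivity
  · exact le_rfl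

/-- **the floor in `TLt` can be replaced by every other floor `η`**, at the price
`|η - b|^q · 2 N² (1 + 2 D / (1 - q))` -/
theorem TLt_floor {p : Λ → ℝ} {ν : Λ → Measure ℝ} {mov : Λ → Prop} {ρ : Measure ℝ}
    [IsProbabilityMeasure ρ] [∀ k, IsProbabilityMeasure (ν k)] (hp : ∀ k, 0 ≤ p k)
    (hp1 : ∑ k, p k = 1) (hmix : ∑ k, ENNReal.ofReal (p k) • ν k = ρ) {D q : ℝ} (hD : 0 ≤ D)
    (hρ : DensLe D ρ) (hq : 0 < q) (hq1 : q < 1) (N : ℕ) [NeZero N] {c : ℝ} (hc : 0 ≤ c)
    (E : ℝ) {η b : ℝ} (hη : 0 < η) (hb : 0 < b) (m : ℕ) :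
    TLt p ν mov N c q E η m ≤ TLt p ν mov N c q E b m +
      ENNReal.ofReal (|b - η| ^ q * (2 * (N : ℝ) ^ 2 * (1 + 2 * D / (1 - q)))) := by
  classical
  have hk : ∀ (k : Λ) (x : Tor N), 0 ≤ (if mov k then prT N c m x else 0) := fun k x => by
    split_ifs
    · exact prT_nonneg hc m x
    · exact le_rfl
  have h := crs_floor (AT_symm N) hp hp1 hmix hD hρ hq hq1 E
    (a := fun k y => η + if mov k then prT N c m y else 0)
    (a' := fun k y => b + if mov k then prT N c m y else 0)
    (c := fun k y => if mov k then prT N c m y else 0)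
    (fun k x => by have := hk k x; show 0 < η + _; linarith)
    (fun k x => by have := hk k x; show 0 < b + _; linarith)
    (fun k x => hk k x) (fun k x => by show _ ≤ η + _; linarith)
    (fun k x => by show _ ≤ b + _; linarith) (abs_nonneg (b - η))
    (fun k x => by
      show |(b + _) - (η + _)| ≤ _
      rw [show ∀ t : ℝ, b + t - (η + t) = b - η from fun t => by ring])
    (slT N (3 * m) (4 * m)) (slT N (8 * m) (12 * m))
  have hcard : (Fintype.card (Tor N) : ℝ) = (N : ℝ) ^ 2 := by
    simp [Tor, ZMod.card, sq]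
  rw [hcard] at h
  unfold TLt
  convert h using 2

end P365T2.H692
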