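import Vale.Agent.P365.T2.H692.One
import Vale.Agent.P365.T2.C4_737
import Vale.Agent.P365.T2.H694.Geo
import Vale.Agent.P365.T1a.Site

set_option linter.all false

/-!
# P365 / T2 / C4 (= B2 of 19928): removing the floor.

`Crs(e) ≤ Crs(e') + δ^q · 2 |ι| (1 + 2 D / (1 - q))` for two own-label dependent profiles with
`|e - e'| ≤ δ`, both above the weights of the leads; `D` = density of the mixture law.
-/

namespace P365T2.H692

open P365L P365T1 P365L.C4H737 P365T2.H694 Matrix Complex MeasureTheory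
open scoped ENNReal

variable {ι Λ : Type*} [Fintype ι] [DecidableEq ι] [Fintype Λ]
variable {A : Matrix ι ι ℝ} {p : Λ → ℝ} {ν : Λ → Measure ℝ}

/-- the diagonal element as a function of its own potential -/
theorem norm_diag_le (hA : A.IsSymm) {W : ι → ℂ} (hW : ∀ x, (W x).im < 0) (z : ι) {w : ℂ}
    (hw : w.im < 0) {q : ℝ} (hq : 0 < q) :
    ‖Gr A (Function.update W z w) z z‖ ^ q ≤ |w.re - (sg A W z).re| ^ (-q) ∨
      w.re = (sg A W z).re := by
  by_cases h : w.re = (sg A W z).re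
  · exact Or.inr h
  · left
    rw [Gr_zz_upd hA hW hw, norm_inv, Real.inv_rpow (norm_nonneg _),
      ← Real.rpow_neg (norm_nonneg _)]
    have h1 : 0 < |w.re - (sg A W z).re| := abs_pos.2 (sub_ne_zero.2 h)
    refine Real.rpow_le_rpow_of_nonpos h1 ?_ (by linarith)
    rw [← Complex.sub_re]
    exact Complex.abs_re_le_norm _

/-- one-site average of the diagonal element -/
theorem site_avg (hA : A.IsSymm) {ρ : Measure ℝ} [IsProbabilityMeasure ρ]
    (hp : ∀ k, 0 ≤ p k) (hmix : ∑ k, ENNReal.ofReal (p k) • ν k = ρ) {D q : ℝ} (hD : 0 ≤ D)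
    (hρ : DensLe D ρ) (hq : 0 < q) (hq1 : q < 1) {W : ι → ℂ} (hW : ∀ x, (W x).im < 0) (z : ι)
    (E : ℝ) {a : Λ → ℝ} (ha : ∀ k, 0 < a k) :
    ∑ k, ENNReal.ofReal (p k) * ∫⁻ t, ENNReal.ofReal
      (‖Gr A (Function.update W z (((t - E : ℝ) : ℂ) - (a k : ℂ) * I)) z z‖ ^ q) ∂(ν k) ≤
      ENNReal.ofReal (1 + 2 * D / (1 - q)) := by
  obtain ⟨r, hr⟩ : ∃ r, r = E + (sg A W z).re := ⟨_, rfl⟩
  have hm : Measurable fun t : ℝ => ENNReal.ofReal (|t - r| ^ (-q)) := by fun_prop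
  have hvol : (volume : Measure ℝ) {r} = 0 := Real.volume_singleton
  have hρ0 : ρ {r} = 0 := by
    refine le_antisymm ?_ bot_le
    refine (hρ {r}).trans ?_
    rw [Measure.smul_apply, hvol, smul_zero]
  have hk : ∀ k, ENNReal.ofReal (p k) * ∫⁻ t, ENNReal.ofReal
      (‖Gr A (Function.update W z (((t - E : ℝ) : ℂ) - (a k : ℂ) * I)) z z‖ ^ q) ∂(ν k) ≤
      ENNReal.ofReal (p k) * ∫⁻ t, ENNReal.ofReal (|t - r| ^ (-q)) ∂(ν k) := by
    intro k
    have h0 : ENNReal.ofReal (p k) * ν k {r} = 0 := by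
      refine le_antisymm ?_ bot_le
      rw [← hρ0, ← hmix, Measure.finset_sum_apply]
      have h1 := Finset.single_le_sum (f := fun k => (ENNReal.ofReal (p k) • ν k) {r})
        (fun i _ => bot_le) (Finset.mem_univ k)
      simpa using h1
    rcases mul_eq_zero.1 h0 with h1 | h1
    · rw [h1, zero_mul, zero_mul]
    · refine mul_le_mul' le_rfl (lintegral_mono_ae ?_)
      have h2 : ∀ᵐ t ∂(ν k), t ≠ r := by
        rw [ae_iff]
        simpa using h1
      filter_upwards [h2] with t ht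
      refine ENNReal.ofReal_le_ofReal ?_
      have h3 := norm_diag_le hA hW z (w := ((t - E : ℝ) : ℂ) - (a k : ℂ) * I)
        (by simpa using ha k) hq
      have h4 : (((t - E : ℝ) : ℂ) - (a k : ℂ) * I).re = t - E := by simp
      rw [h4] at h3
      rcases h3 with h3 | h3
      · have h5 : t - E - (sg A W z).re = t - r := by rw [hr]; ring
        rwa [h5] at h3
      · exact absurd (by rw [hr]; linarith) ht
  calc _ ≤ ∑ k, ENNReal.ofReal (p k) * ∫⁻ t, ENNReal.ofReal (|t - r| ^ (-q)) ∂(ν k) :=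
        Finset.sum_le_sum fun k _ => hk k
    _ = ∫⁻ t, ENNReal.ofReal (|t - r| ^ (-q)) ∂ρ := by
        rw [← hmix, lintegral_finset_sum_measure]
        refine Finset.sum_congr rfl fun k _ => ?_
        rw [lintegral_smul_measure, smul_eq_mul]
    _ ≤ _ := one_moment hD hρ hq hq1 r

/-- label and value average of the diagonal element -/
theorem diag_avg (hA : A.IsSymm) {ρ : Measure ℝ} [IsProbabilityMeasure ρ]
    [∀ k, IsProbabilityMeasure (ν k)] (hp : ∀ k, 0 ≤ p k) (hp1 : ∑ k, p k = 1)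
    (hmix : ∑ k, ENNReal.ofReal (p k) • ν k = ρ) {D q : ℝ} (hD : 0 ≤ D)
    (hρ : DensLe D ρ) (hq : 0 < q) (hq1 : q < 1) (E : ℝ) {a : Λ → ι → ℝ}
    (ha : ∀ k x, 0 < a k x) (z : ι) :
    ∑ l : ι → Λ, ENNReal.ofReal (∏ x, p (l x)) *
      ∫⁻ v, ENNReal.ofReal (‖Gr A (WV E (fun x => a (l x) x) v) z z‖ ^ q)
        ∂(Measure.pi fun x => ν (l x)) ≤ ENNReal.ofReal (1 + 2 * D / (1 - q)) := by
  letI : MeasurableSpace Λ := ⊤
  haveI : DiscreteMeasurableSpace Λ := ⟨fun s => trivial⟩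
  haveI : IsProbabilityMeasure (jl p ν) := jl_prob hp hp1
  obtain ⟨F, hF⟩ : ∃ F : (ι → Λ × ℝ) → ℝ≥0∞, F = fun ω =>
      ENNReal.ofReal (‖Gr A (WV E (fun x => a (ω x).1 x) (fun x => (ω x).2)) z z‖ ^ q) :=
    ⟨_, rfl⟩
  have hFm : Measurable F := by
    rw [hF]
    refine ENNReal.measurable_ofReal.comp (Measurable.pow_const ?_ _)
    refine (measurable_Gr (fun ω : ι → Λ × ℝ =>
      WV E (fun x => a (ω x).1 x) (fun x => (ω x).2)) (fun x => ?_) z z).norm
    unfold WV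
    have h1 : Measurable fun ω : ι → Λ × ℝ => (ω x).2 :=
      measurable_snd.comp (measurable_pi_apply x)
    have h2 : Measurable fun ω : ι → Λ × ℝ => a (ω x).1 x :=
      (measurable_from_top (f := fun k : Λ => a k x)).comp
        (measurable_fst.comp (measurable_pi_apply x))
    exact (Complex.measurable_ofReal.comp (h1.sub_const _)).sub
      ((Complex.measurable_ofReal.comp h2).mul_const _)
  have h1 := lintegral_pi_jl (ι := ι) (p := p) (ν := ν) hp hFm
  rw [hF] at h1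
  simp only at h1
  rw [← h1]
  rcases isEmpty_or_nonempty (ι → Λ × ℝ) with h0 | ⟨⟨ω₀⟩⟩
  · rw [lintegral_of_isEmpty]
    exact bot_le
  rw [show (∫⁻ ω, ENNReal.ofReal (‖Gr A (WV E (fun x => a (ω x).1 x) (fun x => (ω x).2)) z z‖ ^ q)
    ∂(Measure.pi fun _ : ι => jl p ν)) = ∫⁻ ω, F ω ∂(Measure.pi fun _ : ι => jl p ν) by rw [hF]]
  rw [lintegral_eq_lmarginal_univ (μ := fun _ : ι => jl p ν) ω₀,
    ← Finset.insert_erase (Finset.mem_univ z),
    lmarginal_insert' (μ := fun _ : ι => jl p ν) F hFm (Finset.notMem_erase z _)]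
  have h2 : ∀ ω : ι → Λ × ℝ, ∫⁻ s, F (Function.update ω z s) ∂(jl p ν) ≤
      ENNReal.ofReal (1 + 2 * D / (1 - q)) := by
    intro ω
    have h4 : Measurable fun s : Λ × ℝ => F (Function.update ω z s) :=
      hFm.comp (measurable_update ω)
    rw [lintegral_jl h4]
    obtain ⟨W, hW⟩ : ∃ W : ι → ℂ, W = WV E (fun x => a (ω x).1 x) (fun x => (ω x).2) := ⟨_, rfl⟩
    have hWn : ∀ x, (W x).im < 0 := by
      intro x
      rw [hW]
      simp [WV, ha]
    refine le_trans (le_of_eq ?_) (site_avg hA hp hmix hD hρ hq hq1 hWn z E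
      (a := fun k => a k z) (fun k => ha k z))
    refine Finset.sum_congr rfl fun k _ => ?_
    congr 1
    refine lintegral_congr fun t => ?_
    rw [hF]
    simp only
    congr 4
    funext x
    by_cases hx : x = z
    · subst hx
      rw [Function.update_self, WV, Function.update_self]
    · rw [Function.update_of_ne hx, WV, Function.update_of_ne hx, hW, WV]
  have h3 := lmarginal_mono (μ := fun _ : ι => jl p ν) (s := Finset.univ.erase z)
    (f := fun ω => ∫⁻ s, F (Function.update ω z s) ∂(jl p ν))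
    (g := fun _ => ENNReal.ofReal (1 + 2 * D / (1 - q))) h2 ω₀
  refine h3.trans ?_
  unfold lmarginal
  rw [lintegral_const, measure_univ, mul_one]

/-- **C4**: removing (or adding) a small floor. -/
theorem crs_floor (hA : A.IsSymm) {ρ : Measure ℝ} [IsProbabilityMeasure ρ]
    [∀ k, IsProbabilityMeasure (ν k)] (hp : ∀ k, 0 ≤ p k) (hp1 : ∑ k, p k = 1)
    (hmix : ∑ k, ENNReal.ofReal (p k) • ν k = ρ) {D q : ℝ} (hD : 0 ≤ D)
    (hρ : DensLe D ρ) (hq : 0 < q) (hq1 : q < 1) (E : ℝ) {a a' c : Λ → ι → ℝ}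
    (ha : ∀ k x, 0 < a k x) (ha' : ∀ k x, 0 < a' k x) (hc : ∀ k x, 0 ≤ c k x)
    (hca : ∀ k x, c k x ≤ a k x) (hca' : ∀ k x, c k x ≤ a' k x) {δ : ℝ} (hδ0 : 0 ≤ δ)
    (hδ : ∀ k x, |a' k x - a k x| ≤ δ) (S Y : Finset ι) :
    Crs A p ν E (fun l x => a (l x) x) (fun l x => c (l x) x) S Y q ≤
      Crs A p ν E (fun l x => a' (l x) x) (fun l x => c (l x) x) S Y q +
        ENNReal.ofReal (δ ^ q * (2 * Fintype.card ι * (1 + 2 * D / (1 - q)))) := by
  have h1q : 0 < 1 - q := by linarith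
  have hδq : 0 ≤ δ ^ q := Real.rpow_nonneg hδ0 _
  have hmG : ∀ (b : ι → ℝ) (z : ι), Measurable fun v : ι → ℝ =>
      ENNReal.ofReal (‖Gr A (WV E b v) z z‖ ^ q) := fun b z =>
    ENNReal.measurable_ofReal.comp
      ((P365T1.Bad.measurable_Gr_WV A E b z z).norm.pow_const _)
  -- pointwise
  have hpt : ∀ (l : ι → Λ) (v : ι → ℝ),
      ENNReal.ofReal ((∑ x ∈ S, ∑ y ∈ Y, c (l x) x * c (l y) y *
        ‖Gr A (WV E (fun x => a (l x) x) v) x y‖ ^ 2) ^ (q / 2)) ≤
      ENNReal.ofReal ((∑ x ∈ S, ∑ y ∈ Y, c (l x) x * c (l y) y *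
        ‖Gr A (WV E (fun x => a' (l x) x) v) x y‖ ^ 2) ^ (q / 2)) +
      ENNReal.ofReal (δ ^ q) * ∑ z, (ENNReal.ofReal (‖Gr A (WV E (fun x => a (l x) x) v) z z‖ ^ q)
        + ENNReal.ofReal (‖Gr A (WV E (fun x => a' (l x) x) v) z z‖ ^ q)) := by
    intro l v
    have hn : ∀ x, (WV E (fun x => a (l x) x) v x).im < 0 := fun x => by simp [WV, ha]
    have hn' : ∀ x, (WV E (fun x => a' (l x) x) v x).im < 0 := fun x => by simp [WV, ha']
    have h1 := PW_rpow_le (e := fun x => c (l x) x) hA hn hn' (fun x => hc _ _)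
      (fun x => by simpa [WV] using hca (l x) x) (fun x => by simpa [WV] using hca' (l x) x) hδ0
      (fun x => by
        have h2 : WV E (fun x => a' (l x) x) v x - WV E (fun x => a (l x) x) v x =
            -((a' (l x) x - a (l x) x : ℝ) : ℂ) * I := by
          unfold WV
          push_cast
          ring
        rw [h2, norm_mul, norm_neg, Complex.norm_I, mul_one, Complex.norm_real, Real.norm_eq_abs]
        exact hδ (l x) x) S Y hq hq1.le
    unfold PW at h1
    refine (ENNReal.ofReal_le_ofReal h1).trans ?_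
    rw [ENNReal.ofReal_add (Real.rpow_nonneg (Finset.sum_nonneg fun x _ => Finset.sum_nonneg
      fun y _ => mul_nonneg (mul_nonneg (hc _ _) (hc _ _)) (sq_nonneg _)) _)
      (mul_nonneg hδq (Finset.sum_nonneg fun z _ => add_nonneg
        (Real.rpow_nonneg (norm_nonneg _) _) (Real.rpow_nonneg (norm_nonneg _) _))),
      ENNReal.ofReal_mul hδq, ENNReal.ofReal_sum_of_nonneg fun z _ => add_nonneg
        (Real.rpow_nonneg (norm_nonneg _) _) (Real.rpow_nonneg (norm_nonneg _) _)]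
    refine add_le_add le_rfl (mul_le_mul' le_rfl (Finset.sum_le_sum fun z _ => ?_))
    rw [ENNReal.ofReal_add (Real.rpow_nonneg (norm_nonneg _) _)
      (Real.rpow_nonneg (norm_nonneg _) _)]
  have hint : ∀ l : ι → Λ,
      ∫⁻ v, ENNReal.ofReal ((∑ x ∈ S, ∑ y ∈ Y, c (l x) x * c (l y) y *
        ‖Gr A (WV E (fun x => a (l x) x) v) x y‖ ^ 2) ^ (q / 2))
        ∂(Measure.pi fun x => ν (l x)) ≤
      ∫⁻ v, ENNReal.ofReal ((∑ x ∈ S, ∑ y ∈ Y, c (l x) x * c (l y) y *
        ‖Gr A (WV E (fun x => a' (l x) x) v) x y‖ ^ 2) ^ (q / 2))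
        ∂(Measure.pi fun x => ν (l x)) +
      ENNReal.ofReal (δ ^ q) * ∑ z,
        (∫⁻ v, ENNReal.ofReal (‖Gr A (WV E (fun x => a (l x) x) v) z z‖ ^ q)
          ∂(Measure.pi fun x => ν (l x)) +
        ∫⁻ v, ENNReal.ofReal (‖Gr A (WV E (fun x => a' (l x) x) v) z z‖ ^ q)
          ∂(Measure.pi fun x => ν (l x))) := by
    intro l
    refine (lintegral_mono (hpt l)).trans (le_of_eq ?_)
    have hm1 : ∀ z, Measurable fun v : ι → ℝ =>
        (ENNReal.ofReal (‖Gr A (WV E (fun x => a (l x) x) v) z z‖ ^ q)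
        + ENNReal.ofReal (‖Gr A (WV E (fun x => a' (l x) x) v) z z‖ ^ q)) :=
      fun z => (hmG _ z).add (hmG _ z)
    have hm2 : Measurable fun v : ι → ℝ =>
        ∑ z, (ENNReal.ofReal (‖Gr A (WV E (fun x => a (l x) x) v) z z‖ ^ q)
        + ENNReal.ofReal (‖Gr A (WV E (fun x => a' (l x) x) v) z z‖ ^ q)) :=
      Finset.measurable_sum _ fun z _ => hm1 z
    rw [lintegral_add_left (measurable_crs A E (fun x => a' (l x) x) (fun x => c (l x) x) S Y q),
      lintegral_const_mul _ hm2, lintegral_finset_sum _ fun z _ => hm1 z]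
    congr 2
    refine Finset.sum_congr rfl fun z _ => ?_
    rw [lintegral_add_left (hmG _ z)]
  obtain ⟨K, hK⟩ : ∃ K, K = ENNReal.ofReal (1 + 2 * D / (1 - q)) := ⟨_, rfl⟩
  have hd : ∀ z, ∑ l : ι → Λ, ENNReal.ofReal (∏ x, p (l x)) *
      ∫⁻ v, ENNReal.ofReal (‖Gr A (WV E (fun x => a (l x) x) v) z z‖ ^ q)
        ∂(Measure.pi fun x => ν (l x)) ≤ K := fun z => by
    rw [hK]; exact diag_avg hA hp hp1 hmix hD hρ hq hq1 E ha z
  have hd' : ∀ z, ∑ l : ι → Λ, ENNReal.ofReal (∏ x, p (l x)) *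
      ∫⁻ v, ENNReal.ofReal (‖Gr A (WV E (fun x => a' (l x) x) v) z z‖ ^ q)
        ∂(Measure.pi fun x => ν (l x)) ≤ K := fun z => by
    rw [hK]; exact diag_avg hA hp hp1 hmix hD hρ hq hq1 E ha' z
  unfold Crs
  calc _ ≤ ∑ l : ι → Λ, ENNReal.ofReal (∏ x, p (l x)) *
        (∫⁻ v, ENNReal.ofReal ((∑ x ∈ S, ∑ y ∈ Y, c (l x) x * c (l y) y *
        ‖Gr A (WV E (fun x => a' (l x) x) v) x y‖ ^ 2) ^ (q / 2))
        ∂(Measure.pi fun x => ν (l x)) +
      ENNReal.ofReal (δ ^ q) * ∑ z,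
        (∫⁻ v, ENNReal.ofReal (‖Gr A (WV E (fun x => a (l x) x) v) z z‖ ^ q)
          ∂(Measure.pi fun x => ν (l x)) +
        ∫⁻ v, ENNReal.ofReal (‖Gr A (WV E (fun x => a' (l x) x) v) z z‖ ^ q)
          ∂(Measure.pi fun x => ν (l x)))) :=
        Finset.sum_le_sum fun l _ => mul_le_mul' le_rfl (hint l)
    _ = _ + ENNReal.ofReal (δ ^ q) * ∑ z,
        ((∑ l : ι → Λ, ENNReal.ofReal (∏ x, p (l x)) *
          ∫⁻ v, ENNReal.ofReal (‖Gr A (WV E (fun x => a (l x) x) v) z z‖ ^ q)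
          ∂(Measure.pi fun x => ν (l x))) +
        ∑ l : ι → Λ, ENNReal.ofReal (∏ x, p (l x)) *
          ∫⁻ v, ENNReal.ofReal (‖Gr A (WV E (fun x => a' (l x) x) v) z z‖ ^ q)
          ∂(Measure.pi fun x => ν (l x))) := by
        simp only [mul_add, Finset.sum_add_distrib]
        congr 1
        simp only [Finset.mul_sum]
        congr 1
        · rw [Finset.sum_comm]
          refine Finset.sum_congr rfl fun z _ => Finset.sum_congr rfl fun l _ => ?_
          ring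
        · rw [Finset.sum_comm]
          refine Finset.sum_congr rfl fun z _ => Finset.sum_congr rfl fun l _ => ?_
          ring
    _ ≤ _ + ENNReal.ofReal (δ ^ q) * ∑ z : ι, (K + K) := by
        refine add_le_add le_rfl (mul_le_mul' le_rfl (Finset.sum_le_sum fun z _ => ?_))
        exact add_le_add (hd z) (hd' z)
    _ = _ := by
        congr 1
        rw [Finset.sum_const, Finset.card_univ, nsmul_eq_mul, hK, ENNReal.ofReal_mul hδq,
          ← ENNReal.ofReal_add (by positivity) (by positivity), ← ENNReal.ofReal_natCast,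
          ← ENNReal.ofReal_mul (by positivity)]
        congr 2
        ring

end P365T2.H692
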