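import Vale.Agent.P365.T1.Defs

set_option linter.all false

/-!
# P365 / T2 / C4, averaged half: negative moments in one variable, and labels + values as one
product space.
-/

namespace P365T2.H692

open P365T1 MeasureTheory
open scoped ENNReal

/-! ### one variable -/

theorem lint_unit {p : ℝ} (hp1 : p < 1) :
    ∫⁻ u in Set.Ioc (0 : ℝ) 1, ENNReal.ofReal (|u| ^ (-p)) = ENNReal.ofReal (1 / (1 - p)) := by
  have h1 : IntervalIntegrable (fun u : ℝ => u ^ (-p)) volume 0 1 :=
    intervalIntegral.intervalIntegrable_rpow' (by linarith)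
  have h2 : ∫ u in (0 : ℝ)..1, u ^ (-p) = 1 / (1 - p) := by
    rw [integral_rpow (Or.inl (by linarith))]
    rw [Real.one_rpow, Real.zero_rpow (by linarith), sub_zero]
    congr 1
    ring
  rw [intervalIntegral.integral_of_le zero_le_one] at h2
  rw [intervalIntegrable_iff_integrableOn_Ioc_of_le zero_le_one] at h1
  have h3 : ∫⁻ u in Set.Ioc (0 : ℝ) 1, ENNReal.ofReal (|u| ^ (-p)) =
      ∫⁻ u in Set.Ioc (0 : ℝ) 1, ENNReal.ofReal (u ^ (-p)) := by
    refine setLIntegral_congr_fun measurableSet_Ioc fun u hu => ?_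
    show ENNReal.ofReal (|u| ^ (-p)) = ENNReal.ofReal (u ^ (-p))
    rw [abs_of_pos hu.1]
  rw [h3, ← h2, ofReal_integral_eq_lintegral_ofReal h1]
  refine (ae_restrict_iff' measurableSet_Ioc).2 (Filter.Eventually.of_forall fun u hu => ?_)
  exact Real.rpow_nonneg hu.1.le _

theorem lint_abs {p : ℝ} (hp1 : p < 1) :
    ∫⁻ u in Set.Icc (-1 : ℝ) 1, ENNReal.ofReal (|u| ^ (-p)) ≤ ENNReal.ofReal (2 / (1 - p)) := by
  have hs : Set.Icc (-1 : ℝ) 1 ⊆ (Neg.neg ⁻¹' Set.Ioc (0 : ℝ) 1 ∪ {0}) ∪ Set.Ioc (0 : ℝ) 1 := by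
    intro u hu
    rcases lt_trichotomy u 0 with h | h | h
    · exact Or.inl (Or.inl ⟨by linarith, by linarith [hu.1]⟩)
    · exact Or.inl (Or.inr h)
    · exact Or.inr ⟨h, hu.2⟩
  have h1 : ∫⁻ u in Neg.neg ⁻¹' Set.Ioc (0 : ℝ) 1, ENNReal.ofReal (|u| ^ (-p)) =
      ENNReal.ofReal (1 / (1 - p)) := by
    rw [← lint_unit hp1]
    have h2 := (Measure.measurePreserving_neg (volume : Measure ℝ)).setLIntegral_comp_preimage
      (measurableSet_Ioc (a := (0 : ℝ)) (b := 1)) (f := fun u : ℝ => ENNReal.ofReal (|u| ^ (-p)))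
      (by fun_prop)
    simp only [abs_neg] at h2
    exact h2
  calc ∫⁻ u in Set.Icc (-1 : ℝ) 1, ENNReal.ofReal (|u| ^ (-p))
      ≤ ∫⁻ u in (Neg.neg ⁻¹' Set.Ioc (0 : ℝ) 1 ∪ {0}) ∪ Set.Ioc (0 : ℝ) 1,
          ENNReal.ofReal (|u| ^ (-p)) := lintegral_mono_set hs
    _ ≤ (∫⁻ u in Neg.neg ⁻¹' Set.Ioc (0 : ℝ) 1 ∪ {0}, ENNReal.ofReal (|u| ^ (-p))) +
          ∫⁻ u in Set.Ioc (0 : ℝ) 1, ENNReal.ofReal (|u| ^ (-p)) := lintegral_union_le _ _ _
    _ ≤ ((∫⁻ u in Neg.neg ⁻¹' Set.Ioc (0 : ℝ) 1, ENNReal.ofReal (|u| ^ (-p))) +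
          ∫⁻ u in {(0 : ℝ)}, ENNReal.ofReal (|u| ^ (-p))) +
          ∫⁻ u in Set.Ioc (0 : ℝ) 1, ENNReal.ofReal (|u| ^ (-p)) :=
        add_le_add (lintegral_union_le _ _ _) le_rfl
    _ = ENNReal.ofReal (2 / (1 - p)) := by
        have h3 : ∫⁻ u in {(0 : ℝ)}, ENNReal.ofReal (|u| ^ (-p)) = 0 := by
          rw [Measure.restrict_singleton]
          simp
        rw [h1, h3, lint_unit hp1, add_zero, ← ENNReal.ofReal_add (by
          have : 0 < 1 - p := by linarith
          positivity) (by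
          have : 0 < 1 - p := by linarith
          positivity)]
        congr 1
        ring

/-- negative moment of a law of bounded density -/
theorem one_moment {ν : Measure ℝ} [IsProbabilityMeasure ν] {D p : ℝ} (hD : 0 ≤ D)
    (hν : DensLe D ν) (hp : 0 < p) (hp1 : p < 1) (r : ℝ) :
    ∫⁻ v, ENNReal.ofReal (|v - r| ^ (-p)) ∂ν ≤ ENNReal.ofReal (1 + 2 * D / (1 - p)) := by
  have h1p : 0 < 1 - p := by linarith
  have h1 : ∀ v : ℝ, ENNReal.ofReal (|v - r| ^ (-p)) ≤
      1 + (Set.Icc (r - 1) (r + 1)).indicator (fun v => ENNReal.ofReal (|v - r| ^ (-p))) v := by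
    intro v
    by_cases hv : v ∈ Set.Icc (r - 1) (r + 1)
    · rw [Set.indicator_of_mem hv]
      exact le_add_self
    · rw [Set.indicator_of_notMem hv, add_zero]
      rw [← ENNReal.ofReal_one]
      refine ENNReal.ofReal_le_ofReal (Real.rpow_le_one_of_one_le_of_nonpos ?_ (by linarith))
      by_contra h
      push Not at h
      rw [abs_lt] at h
      exact hv ⟨by linarith [h.1], by linarith [h.2]⟩
  have hm : Measurable fun v : ℝ => ENNReal.ofReal (|v - r| ^ (-p)) := by fun_prop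
  calc ∫⁻ v, ENNReal.ofReal (|v - r| ^ (-p)) ∂ν
      ≤ ∫⁻ v, (1 + (Set.Icc (r - 1) (r + 1)).indicator
          (fun v => ENNReal.ofReal (|v - r| ^ (-p))) v) ∂ν := lintegral_mono h1
    _ = 1 + ∫⁻ v in Set.Icc (r - 1) (r + 1), ENNReal.ofReal (|v - r| ^ (-p)) ∂ν := by
        rw [lintegral_add_left measurable_const, lintegral_const, measure_univ, one_mul,
          lintegral_indicator measurableSet_Icc]
    _ ≤ 1 + ENNReal.ofReal D *
          ∫⁻ v in Set.Icc (r - 1) (r + 1), ENNReal.ofReal (|v - r| ^ (-p)) := by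
        gcongr
        calc ∫⁻ v in Set.Icc (r - 1) (r + 1), ENNReal.ofReal (|v - r| ^ (-p)) ∂ν
            ≤ ∫⁻ v in Set.Icc (r - 1) (r + 1), ENNReal.ofReal (|v - r| ^ (-p))
                ∂(ENNReal.ofReal D • (volume : Measure ℝ)) :=
              lintegral_mono' (Measure.restrict_mono subset_rfl hν) le_rfl
          _ = _ := by
              rw [Measure.restrict_smul, lintegral_smul_measure, smul_eq_mul]
    _ = 1 + ENNReal.ofReal D * ∫⁻ u in Set.Icc (-1 : ℝ) 1, ENNReal.ofReal (|u| ^ (-p)) := by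
        congr 2
        have h2 := (measurePreserving_sub_right (volume : Measure ℝ) r).setLIntegral_comp_preimage
          (measurableSet_Icc (a := (-1 : ℝ)) (b := 1))
          (f := fun u : ℝ => ENNReal.ofReal (|u| ^ (-p))) (by fun_prop)
        rw [← h2]
        congr 2
        ext v
        simp only [Set.mem_Icc, Set.mem_preimage]
        constructor
        · rintro ⟨a, b⟩
          exact ⟨by linarith, by linarith⟩
        · rintro ⟨a, b⟩
          exact ⟨by linarith, by linarith⟩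
    _ ≤ 1 + ENNReal.ofReal D * ENNReal.ofReal (2 / (1 - p)) := by
        gcongr
        exact lint_abs hp1
    _ = ENNReal.ofReal (1 + 2 * D / (1 - p)) := by
        rw [← ENNReal.ofReal_mul hD, ← ENNReal.ofReal_one, ← ENNReal.ofReal_add zero_le_one (by
          positivity)]
        congr 2
        ring

/-! ### labels and values as one product space -/

variable {ι Λ : Type*} [Fintype ι] [DecidableEq ι] [Fintype Λ] [MeasurableSpace Λ]
  [MeasurableSingletonClass Λ]

/-- law of (label, value) at one site -/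
noncomputable def jl (p : Λ → ℝ) (ν : Λ → Measure ℝ) : Measure (Λ × ℝ) :=
  ∑ k, ENNReal.ofReal (p k) • (ν k).map (Prod.mk k)

variable {p : Λ → ℝ} {ν : Λ → Measure ℝ}

theorem lintegral_jl {F : Λ × ℝ → ℝ≥0∞} (hF : Measurable F) :
    ∫⁻ s, F s ∂(jl p ν) = ∑ k, ENNReal.ofReal (p k) * ∫⁻ t, F (k, t) ∂(ν k) := by
  unfold jl
  rw [lintegral_finset_sum_measure]
  refine Finset.sum_congr rfl fun k _ => ?_
  rw [lintegral_smul_measure, smul_eq_mul, lintegral_map hF measurable_prodMk_left]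

theorem jl_prob [∀ k, IsProbabilityMeasure (ν k)] (hp : ∀ k, 0 ≤ p k) (hp1 : ∑ k, p k = 1) :
    IsProbabilityMeasure (jl p ν) := by
  refine ⟨?_⟩
  have h1 := lintegral_jl (p := p) (ν := ν) (F := fun _ => 1) measurable_const
  rw [lintegral_const, one_mul] at h1
  rw [h1]
  simp only [lintegral_const, measure_univ, mul_one]
  rw [← ENNReal.ofReal_sum_of_nonneg fun k _ => hp k, hp1, ENNReal.ofReal_one]

/-- the label average of the product integrals is the integral over the product of the joint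
laws -/
theorem lintegral_pi_jl [∀ k, IsProbabilityMeasure (ν k)] (hp : ∀ k, 0 ≤ p k)
    {F : (ι → Λ × ℝ) → ℝ≥0∞} (hF : Measurable F) :
    ∫⁻ ω, F ω ∂(Measure.pi fun _ : ι => jl p ν) =
      ∑ l : ι → Λ, ENNReal.ofReal (∏ x, p (l x)) *
        ∫⁻ v, F (fun x => (l x, v x)) ∂(Measure.pi fun x => ν (l x)) := by
  haveI : IsFiniteMeasure (jl p ν) := by
    refine ⟨?_⟩
    have h1 := lintegral_jl (p := p) (ν := ν) (F := fun _ => 1) measurable_const
    rw [lintegral_const, one_mul] at h1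
    rw [h1]
    simp only [lintegral_const, measure_univ, mul_one]
    exact ENNReal.sum_lt_top.2 fun k _ => ENNReal.ofReal_lt_top
  have h1 : (Measure.pi fun _ : ι => jl p ν) =
      ∑ l : ι → Λ, ENNReal.ofReal (∏ x, p (l x)) •
        (Measure.pi fun x => (ν (l x)).map (Prod.mk (l x))) := by
    refine Measure.pi_eq fun s hs => ?_
    rw [Measure.finset_sum_apply]
    simp only [Measure.smul_apply, Measure.pi_pi, smul_eq_mul, jl, Measure.finset_sum_apply]
    rw [Finset.prod_univ_sum]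
    simp only [Fintype.piFinset_univ, Finset.prod_mul_distrib]
    refine Finset.sum_congr rfl fun l _ => ?_
    rw [ENNReal.ofReal_prod_of_nonneg fun x _ => hp _]
  rw [h1, lintegral_finset_sum_measure]
  refine Finset.sum_congr rfl fun l _ => ?_
  rw [lintegral_smul_measure, smul_eq_mul]
  congr 1
  have h2 : (Measure.pi fun x => (ν (l x)).map (Prod.mk (l x))) =
      (Measure.pi fun x => ν (l x)).map (fun v x => (l x, v x)) := by
    haveI : ∀ x, IsProbabilityMeasure ((ν (l x)).map (Prod.mk (l x))) := fun x =>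
      Measure.isProbabilityMeasure_map measurable_prodMk_left.aemeasurable
    exact (Measure.pi_map_pi (μ := fun x => ν (l x)) (f := fun x (t : ℝ) => (l x, t))
      fun x => measurable_prodMk_left.aemeasurable).symm
  rw [h2, lintegral_map hF]
  exact measurable_pi_lambda _ fun x => measurable_const.prodMk (measurable_pi_apply x)

end P365T2.H692
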