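import Vale.Agent.P365.T2.H394.Late
import Vale.Agent.P365.T2.H77.End77
import Vale.Agent.P365.T2.H213.Final

/-!
# P365-T2, B6: `TorSmall` (helper692, shadow of 512)
-/

set_option linter.all false

namespace P365T2.H692.B6

open MeasureTheory ProbabilityTheory Complex Filter Topology
open P365L P365CU P365CUL P365CUL.Inst755 P365T1.Conc P365T2.H213

/-- **`TorSmall`**: 394's `late_lead` + 77's `smTor_of_ramp`, `floor_num` -/
theorem torSmall : TorSmall := by
  intro lam E yf Vsf hlam hE hKT hDS c p hc hp hp4 θ hθ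
  obtain ⟨C, K1, hC, hfl⟩ :=
    P365T2.H77.floor_num hp (1 + 2 * (1 / (2 * lam)) / (1 - p)) hθ
  obtain ⟨rs, hrs, K2, hK2⟩ := P365T2.H394.late_lead hlam hKT hDS hc.le hC
    (θ := 2 * (θ / 2) ^ (2 / p)) (by positivity)
  refine ⟨max K1 K2, fun k hk => ?_⟩
  obtain ⟨I, hadm, h⟩ := hK2 k (le_trans (le_max_right _ _) hk)
  haveI : NeZero (32 * 2 ^ k) := ⟨by positivity⟩
  refine P365T2.H77.smTor_of_ramp hadm (32 * 2 ^ k) hc hp (by linarith) E
    (b := (1 / 2 ^ k : ℝ) ^ C) (by positivity) hθ (by positivity)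
    (Nat.even_iff.2 (by omega)) le_rfl (hfl k (le_trans (le_max_left _ _) hk)) ?_
  exact h (32 * 2 ^ k) rfl

end P365T2.H692.B6
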